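import Mathlib

/-!
[L4] of helper984's chain (board 5453): bridge from symmetric multilinear forms to linear
functionals on polynomials in one variable per slot.
-/

namespace Vale.Agent.P181.H365

open Finset

noncomputable section

section Phi

variable {K : Type*} [CommSemiring K] {ι : Type*} [Fintype ι]
variable {A : Type*} [CommSemiring A] [Algebra K A]
variable {M : Type*} [AddCommMonoid M] [Module K M]

/-- The linear functional on `MvPolynomial ι K` given on monomials by
`∏ X_p ^ s_p ↦ ψ (h_p (X ^ s_p))`. -/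
def phi (ψ : MultilinearMap K (fun _ : ι => A) M) (h : ι → (Polynomial K →ₗ[K] A)) :
    MvPolynomial ι K →ₗ[K] M :=
  (MvPolynomial.basisMonomials ι K).constr K
    (fun s : ι →₀ ℕ => ψ (fun p => h p (Polynomial.X ^ s p)))

omit [Fintype ι] in
theorem phi_monomial (ψ : MultilinearMap K (fun _ : ι => A) M)
    (h : ι → (Polynomial K →ₗ[K] A)) (s : ι →₀ ℕ) :
    phi ψ h (MvPolynomial.monomial s 1) = ψ (fun p => h p (Polynomial.X ^ s p)) := by
  have := (MvPolynomial.basisMonomials ι K).constr_basis K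
    (fun s : ι →₀ ℕ => ψ (fun p => h p (Polynomial.X ^ s p))) s
  simpa [phi] using this

theorem phi_prod (ψ : MultilinearMap K (fun _ : ι => A) M)
    (h : ι → (Polynomial K →ₗ[K] A)) (f : ι → Polynomial K) :
    phi ψ h (∏ p, Polynomial.aeval (MvPolynomial.X p : MvPolynomial ι K) (f p))
      = ψ (fun p => h p (f p)) := by
  classical
  have key : ((phi ψ h).compMultilinearMap
      (MultilinearMap.mkPiAlgebra K ι (MvPolynomial ι K))).compLinearMap
      (fun p => (Polynomial.aeval (MvPolynomial.X p : MvPolynomial ι K)).toLinearMap)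
      = ψ.compLinearMap h := by
    refine Module.Basis.ext_multilinear (fun _ => Polynomial.basisMonomials K) ?_
    intro s
    simp only [MultilinearMap.compLinearMap_apply, LinearMap.compMultilinearMap_apply,
      MultilinearMap.mkPiAlgebra_apply, Polynomial.coe_basisMonomials, AlgHom.toLinearMap_apply]
    have h1 : ∏ p, Polynomial.aeval (MvPolynomial.X p : MvPolynomial ι K)
        (Polynomial.monomial (s p) (1 : K))
        = MvPolynomial.monomial (Finsupp.equivFunOnFinite.symm s) 1 := by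
      rw [MvPolynomial.monomial_eq, Finsupp.prod_fintype _ _ (by intro i; simp)]
      simp [Polynomial.aeval_monomial]
    rw [h1, phi_monomial]
    simp [Polynomial.X_pow_eq_monomial]
  have := congrArg (fun m => m f) key
  simpa using this

omit [Fintype ι] in
theorem phi_rename_perm (ψ : MultilinearMap K (fun _ : ι => A) M)
    (h : ι → (Polynomial K →ₗ[K] A)) (σ : Equiv.Perm ι)
    (hψ : ∀ P : ι → A, ψ (fun i => P (σ i)) = ψ P) (hh : ∀ i, h (σ i) = h i)
    (g : MvPolynomial ι K) : phi ψ h (MvPolynomial.rename σ g) = phi ψ h g := by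
  classical
  have key : (phi ψ h) ∘ₗ (MvPolynomial.rename (R := K) σ).toLinearMap = phi ψ h := by
    refine (MvPolynomial.basisMonomials ι K).ext ?_
    intro s
    simp only [MvPolynomial.coe_basisMonomials, LinearMap.comp_apply, AlgHom.toLinearMap_apply,
      MvPolynomial.rename_monomial]
    rw [phi_monomial, phi_monomial, ← hψ]
    congr 1
    funext i
    rw [hh, Finsupp.mapDomain_apply σ.injective]
  have := congrArg (fun m => m g) key
  simpa using this

omit [Fintype ι] in
theorem phi_rename_swap [DecidableEq ι] (ψ : MultilinearMap K (fun _ : ι => A) M)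
    (h : ι → (Polynomial K →ₗ[K] A))
    (hψ : ∀ (σ : Equiv.Perm ι) (P : ι → A), ψ (fun i => P (σ i)) = ψ P)
    {p p' : ι} (hh : h p = h p')
    (g : MvPolynomial ι K) :
    phi ψ h (MvPolynomial.rename (Equiv.swap p p') g) = phi ψ h g := by
  refine phi_rename_perm ψ h _ (hψ _) ?_ g
  intro i
  rcases eq_or_ne i p with rfl | h1
  · simp [hh]
  rcases eq_or_ne i p' with rfl | h2
  · simp [hh]
  rw [Equiv.swap_apply_of_ne_of_ne h1 h2]

/-- (a) of [L4] in existential form. -/
theorem exists_phi [DecidableEq ι] (ψ : MultilinearMap K (fun _ : ι => A) M)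
    (h : ι → (Polynomial K →ₗ[K] A)) :
    ∃ φ : MvPolynomial ι K →ₗ[K] M,
      (∀ f : ι → Polynomial K,
        φ (∏ p, Polynomial.aeval (MvPolynomial.X p : MvPolynomial ι K) (f p))
          = ψ (fun p => h p (f p))) ∧
      ((∀ (σ : Equiv.Perm ι) (P : ι → A), ψ (fun i => P (σ i)) = ψ P) →
        ∀ p p' : ι, h p = h p' → ∀ g : MvPolynomial ι K,
          φ (MvPolynomial.rename (Equiv.swap p p') g) = φ g) :=
  ⟨phi ψ h, phi_prod ψ h, fun hψ _ _ hh g => phi_rename_swap ψ h hψ hh g⟩

end Phi

section Hom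

variable {K : Type*} [CommRing K] {A : Type*} [CommRing A] [Algebra K A]

/-- Homogenisation of degree `D`: `X ^ k ↦ x0 ^ (D - k) * x1 ^ k` for `k ≤ D`, and `0` for
`k > D`. -/
def hom (K : Type*) [CommRing K] {A : Type*} [CommRing A] [Algebra K A]
    (x0 x1 : A) (D : ℕ) : Polynomial K →ₗ[K] A :=
  ∑ k ∈ Finset.range (D + 1), (Polynomial.lcoeff K k).smulRight (x0 ^ (D - k) * x1 ^ k)

theorem hom_apply (x0 x1 : A) (D : ℕ) (f : Polynomial K) :
    hom K x0 x1 D f = ∑ k ∈ Finset.range (D + 1), f.coeff k • (x0 ^ (D - k) * x1 ^ k) := by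
  simp [hom, LinearMap.sum_apply]

theorem hom_X_pow (x0 x1 : A) {D k : ℕ} (hk : k ≤ D) :
    hom K x0 x1 D (Polynomial.X ^ k) = x0 ^ (D - k) * x1 ^ k := by
  rw [hom_apply, Finset.sum_eq_single k]
  · simp
  · intro b _ hb
    simp [Polynomial.coeff_X_pow, hb]
  · intro h
    exact absurd (Finset.mem_range.2 (by omega)) h

theorem hom_X_pow_of_lt (x0 x1 : A) {D k : ℕ} (hk : D < k) :
    hom K x0 x1 D (Polynomial.X ^ k) = 0 := by
  rw [hom_apply]
  refine Finset.sum_eq_zero ?_
  intro b hb
  have : b ≠ k := by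
    have := Finset.mem_range.1 hb
    omega
  simp [Polynomial.coeff_X_pow, this]

theorem hom_C_mul_X_pow (x0 x1 : A) {D k : ℕ} (hk : k ≤ D) (c : K) :
    hom K x0 x1 D (Polynomial.C c * Polynomial.X ^ k) = c • (x0 ^ (D - k) * x1 ^ k) := by
  rw [← Polynomial.smul_eq_C_mul, map_smul, hom_X_pow x0 x1 hk]

theorem hom_mul (x0 x1 : A) {D E : ℕ} {f g : Polynomial K} (hf : f.natDegree ≤ D)
    (hg : g.natDegree ≤ E) :
    hom K x0 x1 (D + E) (f * g) = hom K x0 x1 D f * hom K x0 x1 E g := by
  have h1 : f = ∑ i ∈ Finset.range (D + 1), Polynomial.C (f.coeff i) * Polynomial.X ^ i :=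
    Polynomial.as_sum_range_C_mul_X_pow' f (Nat.lt_succ_of_le hf)
  have h2 : g = ∑ i ∈ Finset.range (E + 1), Polynomial.C (g.coeff i) * Polynomial.X ^ i :=
    Polynomial.as_sum_range_C_mul_X_pow' g (Nat.lt_succ_of_le hg)
  conv_lhs => rw [h1, h2, Finset.sum_mul_sum, map_sum]
  rw [hom_apply x0 x1 D f, hom_apply x0 x1 E g, Finset.sum_mul_sum]
  refine Finset.sum_congr rfl fun i hi => ?_
  rw [map_sum]
  refine Finset.sum_congr rfl fun j hj => ?_
  have hi' := Finset.mem_range.1 hi
  have hj' := Finset.mem_range.1 hj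
  have e1 : Polynomial.C (f.coeff i) * Polynomial.X ^ i * (Polynomial.C (g.coeff j) * Polynomial.X ^ j)
      = Polynomial.C (f.coeff i * g.coeff j) * Polynomial.X ^ (i + j) := by
    rw [Polynomial.C_mul, pow_add]; ring
  rw [e1, hom_C_mul_X_pow x0 x1 (by omega), smul_mul_smul_comm]
  have e2 : D + E - (i + j) = (D - i) + (E - j) := by omega
  rw [e2, pow_add, pow_add]
  ring_nf

/-- The linear polynomial `α X + β`. -/
def lin (a b : K) : Polynomial K := Polynomial.C a * Polynomial.X + Polynomial.C b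

theorem lin_natDegree (a b : K) : (lin a b).natDegree ≤ 1 := Polynomial.natDegree_linear_le

theorem hom_lin (x0 x1 : A) (a b : K) : hom K x0 x1 1 (lin a b) = a • x1 + b • x0 := by
  rw [hom_apply, Finset.sum_range_succ, Finset.sum_range_one]
  simp [lin, add_comm]

theorem hom_zero_one (x0 x1 : A) : hom K x0 x1 0 (1 : Polynomial K) = 1 := by
  rw [hom_apply]
  simp

theorem hom_lin_pow (x0 x1 : A) (a b : K) (e : ℕ) :
    hom K x0 x1 e (lin a b ^ e) = (a • x1 + b • x0) ^ e := by
  induction e with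
  | zero => simp [hom_zero_one]
  | succ e ih =>
    rw [pow_succ, hom_mul x0 x1 (Polynomial.natDegree_pow_le_of_le e (lin_natDegree a b) |>.trans
      (by omega)) (lin_natDegree a b), ih, hom_lin, pow_succ]

theorem natDegree_prod_lin_pow_le {J : Type*} (s : Finset J) (a b : J → K) (e : J → ℕ) :
    (∏ j ∈ s, lin (a j) (b j) ^ e j).natDegree ≤ ∑ j ∈ s, e j := by
  refine (Polynomial.natDegree_prod_le _ _).trans (Finset.sum_le_sum fun j _ => ?_)
  exact (Polynomial.natDegree_pow_le_of_le (e j) (lin_natDegree _ _)).trans (by simp)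

theorem hom_prod_lin_pow (x0 x1 : A) {J : Type*} (s : Finset J) (a b : J → K) (e : J → ℕ) :
    hom K x0 x1 (∑ j ∈ s, e j) (∏ j ∈ s, lin (a j) (b j) ^ e j)
      = ∏ j ∈ s, (a j • x1 + b j • x0) ^ e j := by
  classical
  induction s using Finset.induction_on with
  | empty => simp [hom_zero_one]
  | insert i s hi ih =>
    rw [Finset.sum_insert hi, Finset.prod_insert hi, Finset.prod_insert hi,
      hom_mul x0 x1 ((Polynomial.natDegree_pow_le_of_le (e i) (lin_natDegree _ _)).trans (by simp))
        (natDegree_prod_lin_pow_le s a b e), ih, hom_lin_pow]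

theorem hom_prod_lin (x0 x1 : A) {J : Type*} (s : Finset J) (a b : J → K) :
    hom K x0 x1 s.card (∏ j ∈ s, lin (a j) (b j)) = ∏ j ∈ s, (a j • x1 + b j • x0) := by
  have := hom_prod_lin_pow x0 x1 s a b (fun _ => 1)
  simpa using this

theorem derivative_lin_pow (a b : K) (e : ℕ) :
    Polynomial.derivative (lin a b ^ e) = Polynomial.C ((e : K) * a) * lin a b ^ (e - 1) := by
  rw [Polynomial.derivative_pow]
  simp [lin]
  ring

theorem derivative_prod_lin_pow {J : Type*} [DecidableEq J] (s : Finset J) (a b : J → K)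
    (e : J → ℕ) :
    Polynomial.derivative (∏ j ∈ s, lin (a j) (b j) ^ e j)
      = ∑ i ∈ s, ((e i : K) * a i) •
          ∏ j ∈ s, lin (a j) (b j) ^ (e j - if j = i then 1 else 0) := by
  rw [Polynomial.derivative_prod_finset]
  refine Finset.sum_congr rfl fun i hi => ?_
  rw [derivative_lin_pow, Polynomial.smul_eq_C_mul, ← Finset.mul_prod_erase s _ hi]
  rw [if_pos rfl]
  have : ∏ j ∈ s.erase i, lin (a j) (b j) ^ (e j - if j = i then 1 else 0)
      = ∏ j ∈ s.erase i, lin (a j) (b j) ^ e j := by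
    refine Finset.prod_congr rfl fun j hj => ?_
    rw [if_neg (Finset.ne_of_mem_erase hj), Nat.sub_zero]
  rw [this]
  ring

theorem sum_sub_single {J : Type*} [DecidableEq J] (s : Finset J) (e : J → ℕ) {i : J}
    (hi : i ∈ s) (he : e i ≠ 0) :
    ∑ j ∈ s, (e j - if j = i then 1 else 0) = ∑ j ∈ s, e j - 1 := by
  rw [← Finset.add_sum_erase s _ hi, ← Finset.add_sum_erase s e hi, if_pos rfl]
  have : ∑ j ∈ s.erase i, (e j - if j = i then 1 else 0) = ∑ j ∈ s.erase i, e j := by
    refine Finset.sum_congr rfl fun j hj => ?_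
    rw [if_neg (Finset.ne_of_mem_erase hj), Nat.sub_zero]
  rw [this]
  omega

theorem hom_derivative_prod_lin_pow (x0 x1 : A) {J : Type*} [DecidableEq J] (s : Finset J)
    (a b : J → K) (e : J → ℕ) {D : ℕ} (hD : ∑ j ∈ s, e j = D + 1) :
    hom K x0 x1 D (Polynomial.derivative (∏ j ∈ s, lin (a j) (b j) ^ e j))
      = ∑ i ∈ s, ((e i : K) * a i) •
          ∏ j ∈ s, (a j • x1 + b j • x0) ^ (e j - if j = i then 1 else 0) := by
  rw [derivative_prod_lin_pow, map_sum]
  refine Finset.sum_congr rfl fun i hi => ?_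
  rw [map_smul]
  by_cases he : e i = 0
  · simp [he]
  congr 1
  have h1 : D = ∑ j ∈ s, (e j - if j = i then 1 else 0) := by
    rw [sum_sub_single s e hi he, hD]; rfl
  rw [h1, hom_prod_lin_pow x0 x1 s a b (fun j => e j - if j = i then 1 else 0)]

end Hom

section HomField

variable {K : Type*} [Field K] [CharZero K] {A : Type*} [CommRing A] [Algebra K A]

theorem hom_derivative_surj (x0 x1 : A) {D k : ℕ} (hk : k ≤ D) :
    hom K x0 x1 D (Polynomial.derivative
      (Polynomial.C ((k : K) + 1)⁻¹ * Polynomial.X ^ (k + 1))) = x0 ^ (D - k) * x1 ^ k := by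
  have h : (((k : K) + 1)⁻¹ * ((k : K) + 1)) = 1 := inv_mul_cancel₀ (Nat.cast_add_one_ne_zero k)
  rw [Polynomial.derivative_C_mul_X_pow]
  have e : (((k : K) + 1)⁻¹ * ((k + 1 : ℕ) : K)) = 1 := by push_cast; exact h
  rw [e, map_one, one_mul, Nat.add_sub_cancel, hom_X_pow x0 x1 hk]

end HomField

section Slots

variable {K : Type*} [CommRing K] {ι : Type*} [Fintype ι] [DecidableEq ι]
variable {A : Type*} [CommRing A] [Algebra K A]
variable {M : Type*} [AddCommMonoid M] [Module K M]

/-- The slot map: `f ↦ z * hom D f`, or `f ↦ z * hom D f'` for a double slot. -/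
def slot (K : Type*) [CommRing K] {A : Type*} [CommRing A] [Algebra K A]
    (x0 x1 z : A) (D : ℕ) (dbl : Bool) : Polynomial K →ₗ[K] A :=
  (LinearMap.mulLeft K z) ∘ₗ (hom K x0 x1 D) ∘ₗ
    (if dbl then Polynomial.derivative else LinearMap.id)

theorem slot_false (x0 x1 z : A) (D : ℕ) (f : Polynomial K) :
    slot K x0 x1 z D false f = z * hom K x0 x1 D f := by simp [slot]

theorem slot_true (x0 x1 z : A) (D : ℕ) (f : Polynomial K) :
    slot K x0 x1 z D true f = z * hom K x0 x1 D (Polynomial.derivative f) := by simp [slot]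

omit [Fintype ι] [DecidableEq ι] in
theorem aeval_lin (p : ι) (a b : K) :
    Polynomial.aeval (MvPolynomial.X p : MvPolynomial ι K) (lin a b)
      = MvPolynomial.C a * MvPolynomial.X p + MvPolynomial.C b := by
  simp [lin, MvPolynomial.algebraMap_eq]

/-- [L4] (a) + (b) together. -/
theorem exists_phi_slots (ψ : MultilinearMap K (fun _ : ι => A) M) (x0 x1 : A) (z : ι → A)
    (D : ι → ℕ) (dbl : ι → Bool) :
    ∃ φ : MvPolynomial ι K →ₗ[K] M,
      (∀ f : ι → Polynomial K,
        φ (∏ p, Polynomial.aeval (MvPolynomial.X p : MvPolynomial ι K) (f p))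
          = ψ (fun p => slot K x0 x1 (z p) (D p) (dbl p) (f p))) ∧
      (∀ {J : Type} [Fintype J] [DecidableEq J] (a b : J → K) (e : ι → J → ℕ),
        (∀ p, ∑ j, e p j = D p + (if dbl p then 1 else 0)) →
        φ (∏ p, ∏ j, (MvPolynomial.C (a j) * MvPolynomial.X p + MvPolynomial.C (b j)) ^ e p j)
          = ψ (fun p => if dbl p then
              ∑ i, ((e p i : K) * a i) •
                (z p * ∏ j, (a j • x1 + b j • x0) ^ (e p j - if j = i then 1 else 0))
            else z p * ∏ j, (a j • x1 + b j • x0) ^ e p j)) ∧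
      ((∀ (σ : Equiv.Perm ι) (P : ι → A), ψ (fun i => P (σ i)) = ψ P) →
        ∀ p p' : ι, z p = z p' → D p = D p' → dbl p = dbl p' → ∀ g : MvPolynomial ι K,
          φ (MvPolynomial.rename (Equiv.swap p p') g) = φ g) := by
  refine ⟨phi ψ (fun p => slot K x0 x1 (z p) (D p) (dbl p)), phi_prod ψ _, ?_, ?_⟩
  · intro J _ _ a b e he
    have h1 := phi_prod ψ (fun p => slot K x0 x1 (z p) (D p) (dbl p))
      (fun p => ∏ j, lin (a j) (b j) ^ e p j)
    simp only [map_prod, map_pow, aeval_lin] at h1
    rw [h1]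
    congr 1
    funext p
    cases hd : dbl p with
    | false =>
      have hp := he p
      rw [hd] at hp
      simp only [Bool.false_eq_true, if_false, add_zero] at hp
      rw [slot_false, ← hp, hom_prod_lin_pow]
      simp
    | true =>
      have hp := he p
      rw [hd] at hp
      simp only [if_true] at hp
      rw [slot_true, hom_derivative_prod_lin_pow x0 x1 Finset.univ a b (e p) hp,
        Finset.mul_sum]
      simp
  · intro hψ p p' hz hD hd g
    exact phi_rename_swap ψ _ hψ (by simp only [hz, hD, hd]) g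

end Slots

end

end Vale.Agent.P181.H365
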