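import Vale.Agent.P181.H280.Pow

set_option autoImplicit false

open scoped TensorProduct

namespace Vale.Agent.P181.H365

open Vale.Agent.P181 Vale.Agent.P181.H280

universe u

section

variable {V : Type u} [AddCommGroup V] [Module ℂ V]

/-- Polarisation: `symEval` is a combination of the functionals `evalPow`. -/
lemma symEval_eq_sum (b : ℕ) (lam : Fin b → Module.Dual ℂ V) :
    (symEval lam : (Sym[ℂ]^b V) →ₗ[ℂ] ℂ) =
      ∑ T : Finset (Fin b), ((-1 : ℂ) ^ (Tᶜ).card) • evalPow b (∑ i ∈ T, lam i) := by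
  apply sym_hom_ext
  intro v
  rw [symEval_tprod]
  simp only [LinearMap.sum_apply, LinearMap.smul_apply, smul_eq_mul, evalPow_tprod]
  have h := ryser_prod (V := Module.Dual ℂ V) lam (fun j => Module.Dual.eval ℂ V (v j))
  rw [ryser_apply] at h
  have h1 : ∀ T : Finset (Fin b),
      (∏ j, (fun w : Module.Dual ℂ V => Module.Dual.eval ℂ V (v j) w)) (∑ i ∈ T, lam i) =
      ∏ i, ∑ d ∈ T, lam d (v i) := by
    intro T
    rw [Finset.prod_apply]
    apply Finset.prod_congr rfl
    intro i _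
    rw [Module.Dual.eval_apply, LinearMap.sum_apply]
  simp only [h1] at h
  rw [h, ← Equiv.sum_comp (Equiv.inv (Equiv.Perm (Fin b)))]
  apply Finset.sum_congr rfl
  intro e _
  rw [← Equiv.prod_comp e]
  apply Finset.prod_congr rfl
  intro j _
  have he : e⁻¹ (e j) = j := e.symm_apply_apply j
  simp only [Equiv.inv_apply, Module.Dual.eval_apply, he]

lemma symEval_tprod_eq_ryser {b : ℕ} (ξ : Fin b → Module.Dual ℂ V) (v : Fin b → V) :
    symEval ξ (SymmetricPower.tprod ℂ v) = ryser v (∏ j, (fun w => ξ j w)) := by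
  rw [symEval_tprod, ryser_prod]

variable [FiniteDimensional ℂ V]

/-- The functionals `evalPow b ξ` span the dual of `Sym^b V`. -/
lemma span_evalPow (b : ℕ) :
    Submodule.span ℂ (Set.range (fun ξ : Module.Dual ℂ V =>
      (evalPow b ξ : (Sym[ℂ]^b V) →ₗ[ℂ] ℂ))) =
      (⊤ : Submodule ℂ (Module.Dual ℂ (Sym[ℂ]^b V))) := by
  set W := Submodule.span ℂ (Set.range (fun ξ : Module.Dual ℂ V =>
    (evalPow b ξ : (Sym[ℂ]^b V) →ₗ[ℂ] ℂ))) with hW
  have h1 : W.dualCoannihilator = ⊥ := by
    rw [eq_bot_iff]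
    intro y hy
    rw [Submodule.mem_dualCoannihilator] at hy
    rw [Submodule.mem_bot]
    apply symEval_separates Set.univ Submodule.span_univ
    intro lam _
    rw [symEval_eq_sum, LinearMap.sum_apply]
    apply Finset.sum_eq_zero
    intro T _
    rw [LinearMap.smul_apply, hy _ (Submodule.subset_span ⟨_, rfl⟩), smul_zero]
  have h2 := Subspace.dualCoannihilator_dualAnnihilator_eq (W := W)
  rw [h1] at h2
  rw [← h2]
  exact Submodule.dualAnnihilator_bot

/-- Elements of `Sym^b(Sym^a V)` are separated by the functionals with all entries `evalPow`. -/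
lemma eq_zero_of_evalPow {a b : ℕ} (y : Sym[ℂ]^b (Sym[ℂ]^a V))
    (h : ∀ ξ : Fin b → Module.Dual ℂ V, symEval (fun j => evalPow a (ξ j)) y = 0) : y = 0 := by
  apply symEval_separates _ (span_evalPow (V := V) a)
  intro lam hlam
  choose ξ hξ using hlam
  have hlam' : lam = fun j => evalPow a (ξ j) := by
    funext j; exact (hξ j).symm
  rw [hlam']
  exact h ξ

/-- The Foulkes-Howe map, evaluated. -/
lemma symEval_fh {a b : ℕ} (ξ : Fin b → Module.Dual ℂ V) (x : Sym[ℂ]^a (Sym[ℂ]^b V)) :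
    symEval (fun j => evalPow a (ξ j)) (foulkesHowe a b V x) =
      (Fintype.card (Equiv.Perm (Fin b)) : ℂ) * evalPow a (symEval ξ) x := by
  have h : symEval (fun j => evalPow a (ξ j)) ∘ₗ foulkesHowe a b V =
      (Fintype.card (Equiv.Perm (Fin b)) : ℂ) • evalPow a (symEval ξ) := by
    apply pure_hom_ext
    intro v
    rw [LinearMap.comp_apply, symEval_foulkesHowe, LinearMap.smul_apply, evalPow_tprod,
      smul_eq_mul]
    simp only [symEval_tprod_eq_ryser]
  have h1 := congrArg (fun g => g x) h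
  simpa only [LinearMap.comp_apply, LinearMap.smul_apply, smul_eq_mul] using h1

/-- `Hx = 0` means that `x` is killed by all `evalPow a (symEval ξ)`. -/
lemma fh_eq_zero_iff {a b : ℕ} (x : Sym[ℂ]^a (Sym[ℂ]^b V)) :
    foulkesHowe a b V x = 0 ↔
      ∀ ξ : Fin b → Module.Dual ℂ V, evalPow a (symEval ξ) x = 0 := by
  have hne : (Fintype.card (Equiv.Perm (Fin b)) : ℂ) ≠ 0 := by
    exact_mod_cast Fintype.card_ne_zero
  constructor
  · intro h ξ
    have h1 := symEval_fh ξ x
    rw [h, map_zero] at h1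
    exact (mul_eq_zero.1 h1.symm).resolve_left hne
  · intro h
    apply eq_zero_of_evalPow
    intro ξ
    rw [symEval_fh, h ξ, mul_zero]

end

/-- Permuting the entries inside the blocks. -/
def blocks {q a : ℕ} (E : Fin q → Equiv.Perm (Fin a)) : Equiv.Perm (Fin (q * a)) :=
  (finProdFinEquiv.symm.trans (Equiv.prodShear (Equiv.refl _) E)).trans finProdFinEquiv

lemma blocks_apply {q a : ℕ} (E : Fin q → Equiv.Perm (Fin a)) (k : Fin q) (s : Fin a) :
    blocks E (finProdFinEquiv (k, s)) = finProdFinEquiv (k, E k s) := by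
  simp only [blocks, Equiv.trans_apply, Equiv.symm_apply_apply]
  rfl

lemma sum_blocks {q a : ℕ} (g : Fin a → Fin (q * a) → ℂ) :
    ∑ τ : Equiv.Perm (Fin (q * a)), ∏ k : Fin q, ∑ e : Equiv.Perm (Fin a),
      ∏ s : Fin a, g s (τ (finProdFinEquiv (k, e s))) =
    (Fintype.card (Equiv.Perm (Fin a)) : ℂ) ^ q *
      ∑ τ : Equiv.Perm (Fin (q * a)), ∏ t : Fin (q * a), g (finProdFinEquiv.symm t).2 (τ t) := by
  have h1 : ∀ τ : Equiv.Perm (Fin (q * a)), ∏ k : Fin q, ∑ e : Equiv.Perm (Fin a),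
      ∏ s : Fin a, g s (τ (finProdFinEquiv (k, e s))) =
      ∑ E : Fin q → Equiv.Perm (Fin a), ∏ k : Fin q, ∏ s : Fin a,
        g s (τ (finProdFinEquiv (k, E k s))) := by
    intro τ
    rw [Finset.prod_univ_sum, Fintype.piFinset_univ]
  rw [Finset.sum_congr rfl (fun τ _ => h1 τ), Finset.sum_comm]
  have h2 : ∀ E : Fin q → Equiv.Perm (Fin a),
      ∑ τ : Equiv.Perm (Fin (q * a)), ∏ k : Fin q, ∏ s : Fin a,
        g s (τ (finProdFinEquiv (k, E k s))) =
      ∑ τ : Equiv.Perm (Fin (q * a)), ∏ t : Fin (q * a), g (finProdFinEquiv.symm t).2 (τ t) := by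
    intro E
    rw [← Equiv.sum_comp (Equiv.mulRight (blocks E)) (fun τ : Equiv.Perm (Fin (q * a)) =>
      ∏ t : Fin (q * a), g (finProdFinEquiv.symm t).2 (τ t))]
    apply Finset.sum_congr rfl
    intro τ _
    rw [← Equiv.prod_comp finProdFinEquiv, Fintype.prod_prod_type]
    apply Finset.prod_congr rfl
    intro k _
    apply Finset.prod_congr rfl
    intro s _
    rw [Equiv.symm_apply_apply, Equiv.coe_mulRight, Equiv.Perm.mul_apply, blocks_apply]
  rw [Finset.sum_congr rfl (fun E _ => h2 E), Finset.sum_const, nsmul_eq_mul, Finset.card_univ,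
    Fintype.card_fun, Fintype.card_fin]
  push_cast
  ring

section

variable {V : Type u} [AddCommGroup V] [Module ℂ V] [FiniteDimensional ℂ V]

/-- The power map, evaluated. -/
lemma evalPow_powMap {a q : ℕ} (η : Fin a → Module.Dual ℂ V)
    (x : Sym[ℂ]^a (Sym[ℂ]^(q * a) V)) :
    evalPow (q * a) (symEval η) (powMap a q V x) =
      ((Fintype.card (Equiv.Perm (Fin a)) : ℂ) ^ q) ^ a *
        evalPow a (symEval (fun t : Fin (q * a) => η (finProdFinEquiv.symm t).2)) x := by
  have h : evalPow (q * a) (symEval η) ∘ₗ powMap a q V =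
      (((Fintype.card (Equiv.Perm (Fin a)) : ℂ) ^ q) ^ a) •
        evalPow a (symEval (fun t : Fin (q * a) => η (finProdFinEquiv.symm t).2)) := by
    apply pure_hom_ext
    intro v
    rw [LinearMap.comp_apply, powMap_tprod, map_sum, LinearMap.smul_apply, evalPow_tprod,
      smul_eq_mul]
    simp only [evalPow_tprod, symEval_tprod]
    have h1 : ∀ σ : Fin a → Equiv.Perm (Fin (q * a)),
        (∏ j : Fin (q * a), ∑ e : Equiv.Perm (Fin a), ∏ s : Fin a,
          η s (v (finProdFinEquiv.symm j).2 (σ (finProdFinEquiv.symm j).2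
            (finProdFinEquiv ((finProdFinEquiv.symm j).1, e s))))) =
        ∏ i, ∏ k, ∑ e : Equiv.Perm (Fin a), ∏ s : Fin a,
          η s (v i (σ i (finProdFinEquiv (k, e s)))) := fun σ =>
      prod_block (fun k i => ∑ e : Equiv.Perm (Fin a), ∏ s : Fin a,
          η s (v i (σ i (finProdFinEquiv (k, e s)))))
    rw [Finset.sum_congr rfl (fun σ _ => h1 σ)]
    have h2 : ∑ σ : Fin a → Equiv.Perm (Fin (q * a)), ∏ i, ∏ k,
        ∑ e : Equiv.Perm (Fin a), ∏ s : Fin a, η s (v i (σ i (finProdFinEquiv (k, e s)))) =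
        ∏ i, ∑ τ : Equiv.Perm (Fin (q * a)), ∏ k,
          ∑ e : Equiv.Perm (Fin a), ∏ s : Fin a, η s (v i (τ (finProdFinEquiv (k, e s)))) := by
      rw [Finset.prod_univ_sum, Fintype.piFinset_univ]
    rw [h2, Finset.prod_congr rfl (fun i _ => sum_blocks (fun s t => η s (v i t))),
      Finset.prod_mul_distrib, Finset.prod_const, Finset.card_univ, Fintype.card_fin]
  have h1 := congrArg (fun g => g x) h
  simpa only [LinearMap.comp_apply, LinearMap.smul_apply, smul_eq_mul] using h1

/-- The power map sends the kernel of the Foulkes-Howe map into the kernel of the Foulkes-Howe map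
in the other direction. -/
theorem fh_pow (a q : ℕ) (x : Sym[ℂ]^a (Sym[ℂ]^(q * a) V))
    (h : foulkesHowe a (q * a) V x = 0) : foulkesHowe (q * a) a V (powMap a q V x) = 0 := by
  rw [fh_eq_zero_iff] at h ⊢
  intro η
  rw [evalPow_powMap, h, mul_zero]

end

end Vale.Agent.P181.H365
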